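import Vale.Agent.P011.H974.Jac
import Vale.Agent.P011.H268.Nrd
import Vale.Agent.P011.H169.C2.Cent

/-!
# The reduced norm of the component of a unitary element in the centralizer, characteristic two

The twin of `H974.Jac` for a central simple algebra `A` with an anisotropic involution over a field
of characteristic two: `t` is symmetric with `t * t + t` in the ground field, the component of `y` in
the centralizer is `t * y + y * t + y`.
-/

open Module

set_option linter.unusedSectionVars false

namespace Vale.Agent.P011.H462.C2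

open Vale.Agent.P011.H738 Vale.Agent.P011.H271 Vale.Agent.P011.H305 Vale.Agent.P011.H961
open Vale.Agent.P011.H872.FF (kk)
open Vale.Agent.P011.H974.Jac (idem_factor rank_idem det_corner)
open Vale.Agent.P011.H169.C2 (IsCent2)
open Vale.Agent.P011.W (HasNrd hasNrd_iff exists_maxfield)
open Vale.Agent.P011.H505.Wang (hasNrd_norm)

section letters

variable {k K A L K' C : Type} [Field k] [Field K] [StarRing K]
    [Ring A] [StarRing A] [Algebra k K] [Algebra k A] [Algebra K A] [IsScalarTower k K A]
    [Field L] [Algebra k L] [Field K'] [StarRing K']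
    [Algebra K K'] [DivisionRing C] [StarRing C] [Algebra L K'] [Algebra L C] [Algebra K' C]
    [IsScalarTower L K' C] {κ : K} {t : A} {a : k} {T : L} {j : C →+* A}

theorem two_ring {R : Type} [Ring R] [Algebra k R] (h2 : (2 : k) = 0) (x : R) : x + x = 0 := by
  rw [← two_smul k, h2, zero_smul]

theorem jk2 (h : IsCent2 k K A L K' C t a T j) (c : k) :
    j (algebraMap L C (algebraMap k L c)) = algebraMap k A c := by
  rw [IsScalarTower.algebraMap_apply L K' C, ← h.comp, h.jK, ← IsScalarTower.algebraMap_apply]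

theorem comm2 (h : IsCent2 k K A L K' C t a T j) (x : C) : j x * t = t * j x :=
  (h.range _).mpr ⟨x, rfl⟩

theorem sq2 (h : IsCent2 k K A L K' C t a T j) : t * t + t = algebraMap k A a := by
  have h1 : j (algebraMap L C (T * T + T)) = t * t + t := by
    rw [map_add, map_mul, map_add, map_mul, h.jT]
  rw [← h1, h.sqT, jk2 h]

theorem sqT2 (h : IsCent2 k K A L K' C t a T j) :
    algebraMap L K' T * algebraMap L K' T + algebraMap L K' T =
      algebraMap K K' (algebraMap k K a) := by
  rw [← map_mul, ← map_add, h.sqT, h.comp]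

/-- The generator is not in `K`. -/
theorem T_not_mem2 (h : IsCent2 k K A L K' C t a T j) (c : K) :
    algebraMap K K' c ≠ algebraMap L K' T := by
  intro hc
  have h1 : Function.Surjective (algebraMap K K') := by
    intro z
    obtain ⟨u, v, rfl⟩ := h.repK z
    exact ⟨u + v * c, by rw [map_add, map_mul, hc]⟩
  have h2 : finrank K K' = 1 := by
    have h3 : Function.Bijective (algebraMap K K') := ⟨(algebraMap K K').injective, h1⟩
    let E : K ≃ₗ[K] K' := LinearEquiv.ofBijective (Algebra.linearMap K K') h3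
    rw [← E.finrank_eq, finrank_self]
  rw [h.rkK] at h2
  omega

theorem rep_unique2 (h : IsCent2 k K A L K' C t a T j) {u v u' v' : K}
    (he : algebraMap K K' u + algebraMap K K' v * algebraMap L K' T =
      algebraMap K K' u' + algebraMap K K' v' * algebraMap L K' T) : u = u' ∧ v = v' := by
  have h1 : v = v' := by
    by_contra hne
    have h2 : algebraMap K K' (v - v') ≠ 0 := (_root_.map_ne_zero _).mpr (sub_ne_zero.mpr hne)
    refine T_not_mem2 h ((u' - u) / (v - v')) ?_
    rw [map_div₀, div_eq_iff h2, map_sub, map_sub]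
    linear_combination -he
  refine ⟨?_, h1⟩
  rw [h1] at he
  exact (algebraMap K K').injective (add_right_cancel he)

theorem two_K' {k : Type} [Field k] (K K' : Type) [Field K] [Field K'] [Algebra k K]
    [Algebra K K'] (h2 : (2 : k) = 0) : (2 : K') = 0 := by
  have h1 := congrArg (kk k K K') h2
  simpa only [map_ofNat, map_zero] using h1

/-- The conjugation of `K'` over `K`. -/
theorem exists_tau2 (h2 : (2 : k) = 0) (h : IsCent2 k K A L K' C t a T j) :
    ∃ τ : K' →+* K', (∀ c : K, τ (algebraMap K K' c) = algebraMap K K' c) ∧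
      τ (algebraMap L K' T) = algebraMap L K' T + 1 := by
  have h2' : (2 : K') = 0 := two_K' K K' h2
  choose U V hUV using h.repK
  have hu : ∀ u v : K, U (algebraMap K K' u + algebraMap K K' v * algebraMap L K' T) = u ∧
      V (algebraMap K K' u + algebraMap K K' v * algebraMap L K' T) = v := fun u v =>
    rep_unique2 h (hUV _).symm
  have hc : ∀ c : K, U (algebraMap K K' c) = c ∧ V (algebraMap K K' c) = 0 := by
    intro c
    have h1 := hu c 0
    rwa [map_zero, zero_mul, add_zero] at h1
  have hT : U (algebraMap L K' T) = 0 ∧ V (algebraMap L K' T) = 1 := by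
    have h1 := hu 0 1
    rwa [map_zero, map_one, zero_add, one_mul] at h1
  have hTT := sqT2 h
  let τ : K' →+* K' :=
    { toFun := fun z => algebraMap K K' (U z) + algebraMap K K' (V z) * (algebraMap L K' T + 1)
      map_one' := by
        have h1 := hc 1
        rw [map_one] at h1
        rw [h1.1, h1.2, map_one, map_zero, zero_mul, add_zero]
      map_zero' := by
        have h1 := hc 0
        rw [map_zero] at h1
        rw [h1.1, h1.2, map_zero, zero_mul, add_zero]
      map_add' := by
        intro z w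
        have h1 := hu (U z + U w) (V z + V w)
        rw [show algebraMap K K' (U z + U w) + algebraMap K K' (V z + V w) * algebraMap L K' T =
          z + w by
            conv_rhs => rw [hUV z, hUV w]
            rw [map_add, map_add]
            ring] at h1
        rw [h1.1, h1.2, map_add, map_add]
        ring
      map_mul' := by
        intro z w
        have h1 := hu (U z * U w + V z * V w * algebraMap k K a)
          (U z * V w + V z * U w + V z * V w)
        rw [show algebraMap K K' (U z * U w + V z * V w * algebraMap k K a) +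
            algebraMap K K' (U z * V w + V z * U w + V z * V w) * algebraMap L K' T = z * w by
            conv_rhs => rw [hUV z, hUV w]
            simp only [map_add, map_mul]
            rw [← hTT]
            linear_combination (algebraMap K K' (V z) * algebraMap K K' (V w) *
              algebraMap L K' T) * h2'] at h1
        rw [h1.1, h1.2]
        simp only [map_add, map_mul]
        rw [← hTT]
        linear_combination (-(algebraMap K K' (V z) * algebraMap K K' (V w))*0) * h2' }
  refine ⟨τ, fun c => ?_, ?_⟩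
  · change algebraMap K K' (U _) + algebraMap K K' (V _) * (algebraMap L K' T + 1) = _
    rw [(hc c).1, (hc c).2, map_zero, zero_mul, add_zero]
  · change algebraMap K K' (U _) + algebraMap K K' (V _) * (algebraMap L K' T + 1) = _
    rw [hT.1, hT.2, map_zero, map_one, one_mul, zero_add]

/-- An element which exchanges `t` and `t + 1`. -/
theorem exists_anti2 [Algebra.IsCentral K A] (h2 : (2 : k) = 0)
    (h : IsCent2 k K A L K' C t a T j) : ∃ w : A, w ≠ 0 ∧ w * t = (t + 1) * w := by
  have h1 : ∃ y : A, y * t ≠ t * y := by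
    by_contra hcon
    push Not at hcon
    have h2 : t ∈ Subalgebra.center K A := by
      rw [Subalgebra.mem_center_iff]
      exact hcon
    rw [Algebra.IsCentral.center_eq_bot, Algebra.mem_bot] at h2
    obtain ⟨c, hc⟩ := h2
    refine T_not_mem2 h c ?_
    apply (algebraMap K' C).injective
    apply h.inj
    rw [h.jK, hc, ← IsScalarTower.algebraMap_apply L K' C, h.jT]
  obtain ⟨y, hy⟩ := h1
  have hA2 : ∀ x : A, x + x = 0 := two_ring h2
  refine ⟨y * t - t * y, sub_ne_zero.mpr hy, ?_⟩
  have h3 : t * t = algebraMap k A a - t := eq_sub_of_add_eq (sq2 h)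
  have h4 : y * (t * t) = y * algebraMap k A a - y * t := by rw [h3, mul_sub]
  have h5 : (t * t) * y = algebraMap k A a * y - t * y := by rw [h3, sub_mul]
  have h6 : y * algebraMap k A a = algebraMap k A a * y := (Algebra.commutes _ _).symm
  have e1 : (y * t - t * y) * t = algebraMap k A a * y - y * t - t * y * t := by
    rw [sub_mul, mul_assoc, h4, h6]
  have e2 : (t + 1) * (y * t - t * y) =
      t * y * t - algebraMap k A a * y + (t * y + y * t) - t * y := by
    have : (t + 1) * (y * t - t * y) = t * y * t - (t * t) * y + y * t - t * y := by noncomm_ring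
    rw [this, h5]
    abel
  have h7 := hA2 (algebraMap k A a * y)
  have h8 := hA2 (t * y * t)
  have h9 := hA2 (y * t)
  rw [e1, e2]
  rw [← sub_eq_zero]
  have e3 : algebraMap k A a * y - y * t - t * y * t -
      (t * y * t - algebraMap k A a * y + (t * y + y * t) - t * y) =
      (algebraMap k A a * y + algebraMap k A a * y) - (y * t + y * t) -
        (t * y * t + t * y * t) := by abel
  rw [e3, h7, h8, h9]
  simp

/-! ### The idempotent -/

variable {Ω : Type} [Field Ω] {n m : ℕ}

/-- The projection on the eigenspace of `Φ t` for the eigenvalue `σ T`. -/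
def eT2 (σ : K' →+* Ω) (Φ : A →+* Matrix (Fin n) (Fin n) Ω) (t : A) (T : L) :
    Matrix (Fin n) (Fin n) Ω :=
  Φ t + (σ (algebraMap L K' T) + 1) • 1

theorem two_O2 {k : Type} [Field k] (K : Type) {K' Ω : Type} [Field K] [Field K'] [Field Ω]
    [Algebra k K] [Algebra K K'] (h2 : (2 : k) = 0) (σ : K' →+* Ω) : (2 : Ω) = 0 := by
  have h1 := congrArg σ (two_K' K K' h2)
  simpa only [map_ofNat, map_zero] using h1

theorem two_M2 (hΩ : (2 : Ω) = 0) (X : Matrix (Fin n) (Fin n) Ω) : X + X = 0 := by
  rw [← two_smul Ω, hΩ, zero_smul]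

theorem Phi_sq2 (h : IsCent2 k K A L K' C t a T j) {σ : K' →+* Ω}
    {Φ : A →+* Matrix (Fin n) (Fin n) Ω}
    (hΦ : ∀ c : K, Φ (algebraMap K A c) = Matrix.scalar (Fin n) (σ (algebraMap K K' c))) :
    Φ t * Φ t + Φ t =
      (σ (algebraMap L K' T) * σ (algebraMap L K' T) + σ (algebraMap L K' T)) • 1 := by
  rw [← map_mul, ← map_add, sq2 h, IsScalarTower.algebraMap_apply k K A, hΦ, ← map_mul, ← map_add,
    sqT2 h, Matrix.smul_one_eq_diagonal]
  rfl

variable {σ : K' →+* Ω} {Φ : A →+* Matrix (Fin n) (Fin n) Ω}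

theorem one_sub_eT2 (hΩ : (2 : Ω) = 0) :
    1 - eT2 σ Φ t T = Φ t + σ (algebraMap L K' T) • 1 := by
  have h1 := two_M2 hΩ (Φ t)
  have h3 := two_M2 hΩ (σ (algebraMap L K' T) • (1 : Matrix (Fin n) (Fin n) Ω))
  rw [eT2, add_smul, one_smul, ← sub_eq_zero]
  have e : (1 : Matrix (Fin n) (Fin n) Ω) - (Φ t + (σ (algebraMap L K' T) • 1 + 1)) -
      (Φ t + σ (algebraMap L K' T) • 1) = -(Φ t + Φ t) -
        (σ (algebraMap L K' T) • (1 : Matrix (Fin n) (Fin n) Ω) +
          σ (algebraMap L K' T) • (1 : Matrix (Fin n) (Fin n) Ω)) := by abel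
  rw [e, h1, h3]
  simp

theorem Phi_eT2 (h2 : (2 : k) = 0) (h : IsCent2 k K A L K' C t a T j)
    (hΦ : ∀ c : K, Φ (algebraMap K A c) = Matrix.scalar (Fin n) (σ (algebraMap K K' c))) :
    Φ t * eT2 σ Φ t T = σ (algebraMap L K' T) • eT2 σ Φ t T := by
  have hΩ : (2 : Ω) = 0 := two_O2 K h2 σ
  have h1 := Phi_sq2 h hΦ
  have h3 : Φ t * Φ t = (σ (algebraMap L K' T) * σ (algebraMap L K' T) +
    σ (algebraMap L K' T)) • 1 - Φ t := eq_sub_of_add_eq h1
  have h4 := two_M2 hΩ (σ (algebraMap L K' T) • (1 : Matrix (Fin n) (Fin n) Ω))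
  rw [eT2, mul_add, mul_smul_comm, mul_one, h3]
  match_scalars
  · linear_combination 0 * hΩ
  · ring

theorem eT2_comm {z : A} (hz : z * t = t * z) : eT2 σ Φ t T * Φ z = Φ z * eT2 σ Φ t T := by
  rw [eT2, add_mul, mul_add, ← map_mul, ← map_mul, hz, smul_mul_assoc, mul_smul_comm, one_mul,
    mul_one]

theorem eT2_anti (hΩ : (2 : Ω) = 0) {w : A} (hw : w * t = (t + 1) * w) :
    Φ w * eT2 σ Φ t T = (1 - eT2 σ Φ t T) * Φ w := by
  have h3 : Φ w * Φ t = (Φ t + 1) * Φ w := by rw [← map_mul, hw, map_mul, map_add, map_one]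
  have h4 := two_M2 hΩ (Φ w)
  rw [one_sub_eT2 hΩ, eT2, mul_add, h3, mul_smul_comm, mul_one, add_mul, add_mul, one_mul,
    smul_mul_assoc, one_mul, add_smul, one_smul]
  have e : Φ t * Φ w + Φ w + (σ (algebraMap L K' T) • Φ w + Φ w) =
      Φ t * Φ w + σ (algebraMap L K' T) • Φ w + (Φ w + Φ w) := by abel
  rw [e, h4, add_zero]

theorem eT2_idem (h2 : (2 : k) = 0) (h : IsCent2 k K A L K' C t a T j)
    (hΦ : ∀ c : K, Φ (algebraMap K A c) = Matrix.scalar (Fin n) (σ (algebraMap K K' c))) :
    eT2 σ Φ t T * eT2 σ Φ t T = eT2 σ Φ t T := by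
  have hΩ : (2 : Ω) = 0 := two_O2 K h2 σ
  have h4 := two_M2 hΩ (σ (algebraMap L K' T) • eT2 σ Φ t T)
  conv_lhs =>
    lhs
    rw [eT2]
  rw [add_mul, Phi_eT2 h2 h hΦ, smul_mul_assoc, one_mul, add_smul, one_smul, ← add_assoc, h4,
    zero_add]

/-- The image of an exchanging element is invertible. -/
theorem det_anti2 (han : ∀ x : A, star x * x = 0 → x = 0) (h : IsCent2 k K A L K' C t a T j)
    (h2 : (2 : k) = 0) (hts : star t = t) (Φ : A →+* Matrix (Fin n) (Fin n) Ω) {w : A}
    (hw0 : w ≠ 0) (hw : w * t = (t + 1) * w) : IsUnit (Φ w).det := by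
  have h1 : star w * t = (t + 1) * star w := by
    have h3 := congrArg star hw
    rw [star_mul, star_mul, star_add, star_one, hts, mul_add, mul_one] at h3
    have h4 := two_ring (k := k) h2 (star w)
    calc star w * t = star w * t + star w + star w - (star w + star w) := by abel
      _ = t * star w + star w := by rw [← h3, h4, sub_zero]
      _ = (t + 1) * star w := by rw [add_mul, one_mul]
  have h3 : star w * w * t = t * (star w * w) := by
    have h4 := two_ring (k := k) h2 (star w * w)
    calc star w * w * t = star w * t * w + star w * w := by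
          rw [mul_assoc, hw, add_mul, mul_add, one_mul, mul_assoc]
      _ = t * (star w * w) + (star w * w + star w * w) := by
          rw [h1, add_mul, add_mul, one_mul, mul_assoc]; abel
      _ = _ := by rw [h4, add_zero]
  obtain ⟨c, hc⟩ := (h.range _).mp h3
  have hc0 : c ≠ 0 := by
    rintro rfl
    rw [map_zero] at hc
    exact hw0 (han w hc.symm)
  have hu : IsUnit (Φ (j c)) := (hc0.isUnit.map j).map Φ
  rw [hc, map_mul, Matrix.isUnit_iff_isUnit_det, Matrix.det_mul] at hu
  exact isUnit_of_mul_isUnit_right hu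

/-- The rank of the idempotent. -/
theorem eT2_rank [Algebra.IsCentral K A] (han : ∀ x : A, star x * x = 0 → x = 0)
    (h2 : (2 : k) = 0) (hts : star t = t)
    (h : IsCent2 k K A L K' C t a T j) (hn : n = 2 * m)
    (hΦ : ∀ c : K, Φ (algebraMap K A c) = Matrix.scalar (Fin n) (σ (algebraMap K K' c))) :
    (eT2 σ Φ t T).rank = m := by
  have hΩ : (2 : Ω) = 0 := two_O2 K h2 σ
  obtain ⟨w, hw0, hw⟩ := exists_anti2 h2 h
  have h1 := rank_idem _ (eT2_idem h2 h hΦ)
  have hu' : IsUnit (Φ w).det := det_anti2 han h h2 hts Φ hw0 hw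
  have h3 := congrArg Matrix.rank (eT2_anti (σ := σ) (Φ := Φ) (T := T) hΩ hw)
  rw [Matrix.rank_mul_eq_right_of_isUnit_det _ _ hu',
    Matrix.rank_mul_eq_left_of_isUnit_det _ _ hu'] at h3
  omega

/-- The determinant of a corner on the centralizer is the reduced norm of the centralizer. -/
theorem nrd_det_cent2 [Algebra.IsCentral K A] (han : ∀ x : A, star x * x = 0 → x = 0)
    (h2 : (2 : k) = 0) (hts : star t = t)
    (h : IsCent2 k K A L K' C t a T j) (hn : n = 2 * m)
    (hΦ : ∀ c : K, Φ (algebraMap K A c) = Matrix.scalar (Fin n) (σ (algebraMap K K' c)))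
    {c : C} {ν : K'} (hν : HasNrd K' m c ν) :
    (eT2 σ Φ t T * Φ (j c) + (1 - eT2 σ Φ t T)).det = σ ν := by
  obtain ⟨e, he⟩ : ∃ e, e = eT2 σ Φ t T := ⟨_, rfl⟩
  have hee := eT2_idem h2 h hΦ
  have hr := eT2_rank han h2 hts h hn hΦ
  have hte := Phi_eT2 h2 h hΦ
  have hce : ∀ x : C, e * Φ (j x) = Φ (j x) * e := fun x => by
    rw [he]
    exact eT2_comm (comm2 h x)
  rw [← he] at hee hr hte ⊢
  obtain ⟨P, P', h1, h2⟩ := idem_factor e hee hr
  have heP : e * P = P := by rw [← h2, Matrix.mul_assoc, h1, Matrix.mul_one]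
  have hPe : P' * e = P' := by rw [← h2, ← Matrix.mul_assoc, h1, Matrix.one_mul]
  let g : C →+* Matrix (Fin m) (Fin m) Ω :=
    { toFun := fun x => P' * Φ (j x) * P
      map_one' := by rw [map_one, map_one, Matrix.mul_one, h1]
      map_zero' := by rw [map_zero, map_zero, Matrix.mul_zero, Matrix.zero_mul]
      map_add' := fun x y => by rw [map_add, map_add, Matrix.mul_add, Matrix.add_mul]
      map_mul' := fun x y => by
        have h3 : P' * Φ (j x) * P * (P' * Φ (j y) * P) =
            P' * (Φ (j x) * e * Φ (j y)) * P := by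
          rw [← h2]
          simp only [Matrix.mul_assoc]
        have h4 : P' * (Φ (j x) * e * Φ (j y)) = P' * (Φ (j x) * Φ (j y)) := by
          rw [← hce x, Matrix.mul_assoc e, ← Matrix.mul_assoc P', hPe]
        rw [h3, map_mul, map_mul, h4] }
  have hg : ∀ z : K', g (algebraMap K' C z) = Matrix.scalar (Fin m) (σ z) := by
    intro z
    obtain ⟨u, v, rfl⟩ := h.repK z
    have h3 : ∀ w : K, g (algebraMap K' C (algebraMap K K' w)) =
        Matrix.scalar (Fin m) (σ (algebraMap K K' w)) := by
      intro w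
      change P' * Φ (j _) * P = _
      rw [h.jK, hΦ]
      have h4 : P' * Matrix.scalar (Fin n) (σ (algebraMap K K' w)) =
          σ (algebraMap K K' w) • P' := by
        rw [Matrix.scalar_apply, ← Matrix.smul_one_eq_diagonal, Matrix.mul_smul, Matrix.mul_one]
      rw [h4, Matrix.smul_mul, h1, Matrix.smul_one_eq_diagonal, Matrix.scalar_apply]
    have h5 : g (algebraMap K' C (algebraMap L K' T)) =
        Matrix.scalar (Fin m) (σ (algebraMap L K' T)) := by
      change P' * Φ (j _) * P = _
      rw [← IsScalarTower.algebraMap_apply L K' C, h.jT]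
      have h4 : P' * Φ t * P = P' * (Φ t * e) * P := by
        rw [Matrix.mul_assoc, Matrix.mul_assoc, Matrix.mul_assoc, heP]
      rw [h4, hte, Matrix.mul_smul, hPe, Matrix.smul_mul, h1, Matrix.smul_one_eq_diagonal,
        Matrix.scalar_apply]
    rw [map_add, map_mul, map_add g, map_mul g, h3, h3, h5, map_add σ, map_mul σ, map_add, map_mul]
  have h6 := (hasNrd_iff.mp hν) Ω σ g hg
  rw [← h6]
  change _ = (P' * Φ (j c) * P).det
  have h7 : e * Φ (j c) + (1 - e) = 1 + P * (P' * (Φ (j c) - 1)) := by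
    rw [← Matrix.mul_assoc, h2, Matrix.mul_sub, Matrix.mul_one]
    abel
  rw [h7, Matrix.det_one_add_mul_comm]
  congr 1
  rw [Matrix.mul_sub, Matrix.mul_one, Matrix.sub_mul, h1]
  abel

/-- `y + cc t y` exchanges `t` and `t + 1`. -/
theorem anti_cc2 (h2 : (2 : k) = 0) (h : IsCent2 k K A L K' C t a T j) (y : A) :
    (t * y + y * t) * t = (t + 1) * (t * y + y * t) := by
  have hA2 : ∀ x : A, x + x = 0 := two_ring h2
  have h3 : t * t = algebraMap k A a - t := eq_sub_of_add_eq (sq2 h)
  have h4 : y * (t * t) = y * algebraMap k A a - y * t := by rw [h3, mul_sub]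
  have h5 : (t * t) * y = algebraMap k A a * y - t * y := by rw [h3, sub_mul]
  have h6 : y * algebraMap k A a = algebraMap k A a * y := (Algebra.commutes _ _).symm
  have e1 : (t * y + y * t) * t = t * y * t + algebraMap k A a * y - y * t := by
    rw [add_mul, mul_assoc y t t, h4, h6]
    abel
  have e2 : (t + 1) * (t * y + y * t) =
      algebraMap k A a * y - t * y + t * y * t + t * y + y * t := by
    have : (t + 1) * (t * y + y * t) = (t * t) * y + t * y * t + t * y + y * t := by noncomm_ring
    rw [this, h5]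
  have h9 := hA2 (y * t)
  rw [e1, e2, ← sub_eq_zero]
  have e3 : t * y * t + algebraMap k A a * y - y * t -
      (algebraMap k A a * y - t * y + t * y * t + t * y + y * t) = -(y * t + y * t) := by abel
  rw [e3, h9, neg_zero]

/-- **The determinant of the corner** is the reduced norm of the component in the centralizer. -/
theorem nrd_det2 [Algebra.IsCentral K A] (han : ∀ x : A, star x * x = 0 → x = 0)
    (h2 : (2 : k) = 0) (hts : star t = t)
    (h : IsCent2 k K A L K' C t a T j) (hn : n = 2 * m)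
    (hΦ : ∀ c : K, Φ (algebraMap K A c) = Matrix.scalar (Fin n) (σ (algebraMap K K' c)))
    {y : A} {c : C} (hc : j c = t * y + y * t + y) {ν : K'} (hν : HasNrd K' m c ν) :
    (eT2 σ Φ t T * Φ y + (1 - eT2 σ Φ t T)).det = σ ν := by
  have hΩ : (2 : Ω) = 0 := two_O2 K h2 σ
  rw [← nrd_det_cent2 han h2 hts h hn hΦ hν]
  refine det_corner _ _ _ (eT2_idem h2 h hΦ) ?_
  obtain ⟨w, hwe⟩ : ∃ w, w = t * y + y * t := ⟨_, rfl⟩
  have h1 : w * t = (t + 1) * w := by rw [hwe]; exact anti_cc2 h2 h y
  have h3 := eT2_anti (σ := σ) (Φ := Φ) (T := T) hΩ h1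
  have hee := eT2_idem h2 h hΦ
  have h4 : Φ y = Φ (j c) - Φ w := by rw [← map_sub, hc, ← hwe, add_sub_cancel_left]
  rw [h4, mul_sub, sub_mul, mul_assoc (eT2 σ Φ t T) (Φ w), h3, ← mul_assoc (eT2 σ Φ t T)
    (1 - eT2 σ Φ t T), mul_sub, mul_one, hee, sub_self, zero_mul, sub_zero, eT2_comm (comm2 h c),
    mul_assoc, hee]

/-- The involution of `K'` extends the involution of `K`. -/
theorem star_K2 [StarModule K A] (hSC : SetG L K' C) (h : IsCent2 k K A L K' C t a T j) (c : K) :
    star (algebraMap K K' c) = algebraMap K K' (star c) := by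
  apply (algebraMap K' C).injective
  apply h.inj
  rw [← hSC.star_algebraMapD, h.star, h.jK, h.jK]
  rw [Algebra.algebraMap_eq_smul_one, star_smul, star_one, ← Algebra.algebraMap_eq_smul_one]

/-- **Jacobi**: the reduced norm of the component in the centralizer of a unitary similitude. -/
theorem jac_pu2 [Infinite K] [StarModule K A] (hA : Anis k K A n) (hSC : SetG L K' C)
    (h2 : (2 : k) = 0) (hκ : κ + star κ = 1)
    (h : IsCent2 k K A L K' C t a T j) (hts : star t = t) (hn : n = 2 * m)
    (hC : finrank K' C = m ^ 2) {Ω₀ : Type} [Field Ω₀]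
    [Algebra K Ω₀] (f : A →ₐ[K] Matrix (Fin n) (Fin n) Ω₀) {x : A} {ρ : k}
    (hρ : ρ ≠ 0) (hx : x * star x = algebraMap k A ρ)
    (hdet : (f x).det = algebraMap K Ω₀ (algebraMap k K ρ) ^ m) {c : C}
    (hc : j c = t * x + x * t + x) :
    ∃ p u : k, HasNrd K' m c (kk k K K' p +
      kk k K K' u * (algebraMap K K' κ + algebraMap L K' T)) := by
  have := hA.central
  have := hA.simple
  have := hSC.fin
  have := hSC.cen
  have han := hA.anisotropic
  have hdeg := hA.finrank_eq
  have hm0 : 0 < m := Nat.pos_of_ne_zero (by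
    rintro rfl
    have h1 := hSC.fin
    have h3 : 0 < finrank K' C := finrank_pos
    rw [hC] at h3
    simp at h3)
  have hn0 : 0 < n := by omega
  have hfin : FiniteDimensional K A := FiniteDimensional.of_finrank_pos (by rw [hdeg]; positivity)
  have : Infinite K' := Infinite.of_injective _ (algebraMap K K').injective
  obtain ⟨ν, hν⟩ : ∃ ν : K', HasNrd K' m c ν := by
    obtain ⟨E, _, _, _, i, u, hE, rfl⟩ := exists_maxfield hC c
    exact ⟨Algebra.norm K' u, hasNrd_norm hC hE i u⟩
  obtain ⟨τ, hτ, hτT⟩ := exists_tau2 h2 h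
  have h2K : (2 : K) = 0 := by
    have h1 := congrArg (algebraMap k K) h2
    simpa only [map_ofNat, map_zero] using h1
  have h2' : (2 : K') = 0 := two_K' K K' h2
  have hν' : HasNrd K' m (star c) (star ν) :=
    W.HasNrd.star (fun c => hSC.star_algebraMapD c) hν
  -- a splitting
  obtain ⟨g⟩ := Vale.Agent.P011.H268.exists_split_sepClosed (K := K) (A := A)
    (E := AlgebraicClosure K') hdeg
  obtain ⟨σ, hσ⟩ : ∃ σ, σ = algebraMap K' (AlgebraicClosure K') := ⟨_, rfl⟩
  obtain ⟨Φ, hΦe⟩ : ∃ Φ : A →+* Matrix (Fin n) (Fin n) (AlgebraicClosure K'),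
    Φ = (g : A →+* _) := ⟨_, rfl⟩
  have hΩ : (2 : AlgebraicClosure K') = 0 := two_O2 K h2 σ
  have hΦ : ∀ c : K, Φ (algebraMap K A c) = Matrix.scalar (Fin n)
      (σ (algebraMap K K' c)) := fun c => by
    rw [hΦe, hσ]
    change g _ = _
    rw [g.commutes, ← IsScalarTower.algebraMap_apply]
    rfl
  have hΦ' : ∀ c : K, Φ (algebraMap K A c) = Matrix.scalar (Fin n)
      ((σ.comp τ) (algebraMap K K' c)) := fun c => by
    rw [RingHom.comp_apply, hτ, hΦ]
  have he' : eT2 (σ.comp τ) Φ t T = 1 - eT2 σ Φ t T := by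
    rw [one_sub_eT2 hΩ, eT2, RingHom.comp_apply, hτT, map_add, map_one, add_assoc, ← two_mul,
      hΩ, zero_mul, add_zero]
  have hX : (Φ x).det = σ (kk k K K' ρ) ^ m := by
    have h1 := Vale.Agent.P011.H268.det_compare hn0 hdeg f g x (ν := algebraMap k K ρ ^ m)
      (by rw [hdet, map_pow])
    rw [hΦe]
    change (g x).det = _
    rw [h1, map_pow, hσ]
    rfl
  have hA' := nrd_det2 han h2 hts h hn hΦ hc hν
  have hc' : j (star c) = t * star x + star x * t + star x := by
    rw [h.star, hc, star_add, star_add, star_mul, star_mul, hts, add_comm (star x * t)]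
  have hB := nrd_det2 han h2 hts h hn hΦ' hc' hν'
  have hR := nrd_det_cent2 han h2 hts h hn hΦ'
    (HasNrd.algMap (F := K') (D := C) (d := m) (kk k K K' ρ))
  rw [he'] at hB hR
  have hee := eT2_idem h2 h hΦ
  obtain ⟨e, he⟩ : ∃ e, e = eT2 σ Φ t T := ⟨_, rfl⟩
  rw [← he] at hA' hB hR hee
  have hjr : j (algebraMap K' C (kk k K K' ρ)) = algebraMap k A ρ := by
    change j (algebraMap K' C (algebraMap K K' (algebraMap k K ρ))) = _
    rw [h.jK, ← IsScalarTower.algebraMap_apply]
  rw [hjr] at hR
  obtain ⟨R, hRe⟩ : ∃ R, R = Φ (algebraMap k A ρ) := ⟨_, rfl⟩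
  rw [← hRe] at hR
  have hRs : R = σ (kk k K K' ρ) • (1 : Matrix (Fin n) (Fin n) (AlgebraicClosure K')) := by
    rw [hRe, IsScalarTower.algebraMap_apply k K A, hΦ, Matrix.smul_one_eq_diagonal]
    rfl
  have hρσ' : σ (kk k K K' ρ) ≠ 0 := (_root_.map_ne_zero _).mpr ((_root_.map_ne_zero _).mpr hρ)
  have hYX : Φ (star x) * Φ x = R := by
    have h1 : Φ x * Φ (star x) = R := by rw [← map_mul, hx, hRe]
    have h3 : ((σ (kk k K K' ρ))⁻¹ • Φ x) * Φ (star x) = 1 := by
      rw [smul_mul_assoc, h1, hRs, smul_smul, inv_mul_cancel₀ hρσ', one_smul]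
    have h4 := mul_eq_one_comm.mp h3
    rw [mul_smul_comm] at h4
    rw [hRs, ← h4, smul_smul, mul_inv_cancel₀ hρσ', one_smul]
  have hRc : ∀ Z : Matrix (Fin n) (Fin n) (AlgebraicClosure K'), R * Z = Z * R := by
    intro Z
    rw [hRs, smul_mul_assoc, mul_smul_comm, one_mul, mul_one]
  have h0 : (1 - e) * e = 0 := by rw [sub_mul, one_mul, hee, sub_self]
  have h00 : e * (1 - e) = 0 := by rw [mul_sub, mul_one, hee, sub_self]
  have h11 : (1 - e) * (1 - e) = 1 - e := by rw [mul_sub, mul_one, h0, sub_zero]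
  have i1 : ((1 - e) * Φ (star x) + (1 - (1 - e))) * Φ x = (1 - e) * R + e * Φ x := by
    rw [add_mul, mul_assoc, hYX, sub_sub_cancel]
  have i2 : ((1 - e) * R + (1 - (1 - e))) * (e * Φ x + (1 - e)) = (1 - e) * R + e * Φ x := by
    rw [sub_sub_cancel, add_mul, mul_add, mul_add, h00, add_zero, ← mul_assoc e e, hee,
      mul_assoc (1 - e) R (e * Φ x), hRc, ← mul_assoc (1 - e), ← mul_assoc (1 - e), h0, zero_mul,
      zero_mul, zero_add, mul_assoc (1 - e) R (1 - e), hRc, ← mul_assoc, h11]
  have i3 := congrArg Matrix.det (i1.trans i2.symm)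
  rw [Matrix.det_mul, Matrix.det_mul, hB, hR, hX, hA', RingHom.comp_apply, RingHom.comp_apply,
    map_pow, map_pow] at i3
  have hkρ : τ (kk k K K' ρ) = kk k K K' ρ := hτ _
  rw [hkρ, mul_comm] at i3
  have hρσ : σ (kk k K K' ρ) ^ m ≠ 0 := pow_ne_zero _ hρσ'
  have i4 : τ (star ν) = ν := σ.injective (mul_left_cancel₀ hρσ i3)
  -- coordinates
  obtain ⟨x₀, y₀, hxy⟩ := h.repK ν
  have hsT : star (algebraMap L K' T) = algebraMap L K' T := (hSC.fix _).mpr ⟨T, rfl⟩
  have hsK := star_K2 hSC h
  have i5 : algebraMap K K' (star x₀ + star y₀) + algebraMap K K' (star y₀) * algebraMap L K' T =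
      algebraMap K K' x₀ + algebraMap K K' y₀ * algebraMap L K' T := by
    rw [← hxy]
    conv_rhs => rw [← i4, hxy]
    rw [star_add, star_mul', hsT, hsK, hsK, map_add, map_add, map_mul, hτ, hτ, hτT]
    ring
  obtain ⟨i6, i7⟩ := rep_unique2 h i5
  obtain ⟨u, hu⟩ := (hA.fixed _).mp i7
  have hp0 : star (x₀ + y₀ * κ) = x₀ + y₀ * κ := by
    rw [star_add, star_mul', i7]
    rw [i7] at i6
    have h1 : star κ = 1 - κ := eq_sub_of_add_eq' hκ
    rw [h1]
    linear_combination i6 - y₀ * κ * h2K
  obtain ⟨p, hp⟩ := (hA.fixed _).mp hp0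
  refine ⟨p, u, ?_⟩
  have hν2 : ν = kk k K K' p + kk k K K' u * (algebraMap K K' κ + algebraMap L K' T) := by
    change ν = algebraMap K K' (algebraMap k K p) +
      algebraMap K K' (algebraMap k K u) * (algebraMap K K' κ + algebraMap L K' T)
    rw [hxy, hp, hu, map_add, map_mul]
    linear_combination -(algebraMap K K' y₀ * algebraMap K K' κ) * h2'
  rw [← hν2]
  exact hν

/-- The form with `I = κ + t`, the component is `x * I + I * x + x`. -/
theorem jac_puI [Infinite K] [StarModule K A] (hA : Anis k K A n) (hSC : SetG L K' C)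
    (h2 : (2 : k) = 0) (hκ : κ + star κ = 1)
    (h : IsCent2 k K A L K' C t a T j) (hts : star t = t) (hn : n = 2 * m)
    (hC : finrank K' C = m ^ 2) {Ω₀ : Type} [Field Ω₀]
    [Algebra K Ω₀] (f : A →ₐ[K] Matrix (Fin n) (Fin n) Ω₀) {x I : A}
    (hI : I = algebraMap K A κ + t) {ρ : k}
    (hρ : ρ ≠ 0) (hx : x * star x = algebraMap k A ρ)
    (hdet : (f x).det = algebraMap K Ω₀ (algebraMap k K ρ) ^ m) {c : C}
    (hc : j c = x * I + I * x + x) :
    ∃ p u : k, HasNrd K' m c (kk k K K' p +
      kk k K K' u * (algebraMap K K' κ + algebraMap L K' T)) := by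
  refine jac_pu2 hA hSC h2 hκ h hts hn hC f hρ hx hdet ?_
  have h1 : x * algebraMap K A κ = algebraMap K A κ * x := (Algebra.commutes _ _).symm
  have h3 := two_ring (k := k) h2 (algebraMap K A κ * x)
  rw [hc, hI, mul_add, add_mul, h1]
  have e : algebraMap K A κ * x + x * t + (algebraMap K A κ * x + t * x) + x =
      (algebraMap K A κ * x + algebraMap K A κ * x) + (t * x + x * t + x) := by abel
  rw [e, h3, zero_add]

/-- The form over a commutative ring of scalars: the norm form of the reduced norm. -/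
theorem om_form2 (h2 : (2 : k) = 0) (h : IsCent2 k K A L K' C t a T j) {ν : k}
    (hν : κ * κ + κ = algebraMap k K ν) :
    (algebraMap K K' κ + algebraMap L K' T) * (algebraMap K K' κ + algebraMap L K' T) +
      (algebraMap K K' κ + algebraMap L K' T) = kk k K K' (a + ν) := by
  have h2' : (2 : K') = 0 := two_K' K K' h2
  have h1 := sqT2 h
  have h3 := congrArg (algebraMap K K') hν
  rw [map_add, map_mul] at h3
  change _ = algebraMap K K' (algebraMap k K (a + ν))
  rw [map_add, map_add]
  linear_combination h1 + h3 + algebraMap K K' κ * algebraMap L K' T * h2'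

end letters

end Vale.Agent.P011.H462.C2
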